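import Mathlib.Analysis.SpecialFunctions.Log.Basic

/-!
Kernel checker for pointwise inequalities between finite sums of logarithms of nonnegative
quadratic polynomials (potentials of point charges on a line or on a circle). Second order in
the cell, cubic remainder.
-/

noncomputable section

namespace Vale.Agent.P030.H532

/-- The quadratic `A t² + (Bp - Bn) t + C`; `V` packs the multiplicities of the blocks in base
`2^96`; `D` bounds the differences of multiplicities. -/
structure Atom where
  A : Nat
  Bp : Nat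
  Bn : Nat
  C : Nat
  V : Nat
  D : Nat

/-- `f n`, forcing the kernel to evaluate `n` first -/
def force (n : Nat) (f : Nat → Bool) : Bool :=
  Nat.rec (f (nat_lit 0)) (fun m _ => f (Nat.succ m)) n

/-- one normalisation level: if `c ≤ N` then shift by `s` -/
def lvl (c s N e : Nat) (k : Nat → Nat → Bool) : Bool :=
  Bool.rec (k N e) (force (Nat.shiftRight N s) fun N' =>
      k N' (Nat.add e s)) (Nat.ble c N)

/-- the series: `z = (M - 2^40) / (M + 2^40)`, `2^33 atanh z + 2^32 (40 + e) log 2` -/
def lgT (M e : Nat) (k : Nat → Bool) : Bool :=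
  force (Nat.div (Nat.mul (Nat.sub M (nat_lit 1099511627776)) (nat_lit 4294967296)) (Nat.add M (nat_lit 1099511627776))) fun z =>
      force (Nat.shiftRight (Nat.mul z z) (nat_lit 32)) fun w =>
      force (Nat.add (Nat.add (nat_lit 119081778873) (Nat.mul e (nat_lit 2977044472))) (Nat.shiftRight (Nat.mul (Nat.mul (nat_lit 2) z) (Nat.add (nat_lit 4294967296) (Nat.shiftRight (Nat.mul w (Nat.add (nat_lit 1431655765) (Nat.shiftRight (Nat.mul w (Nat.add (nat_lit 858993459) (Nat.shiftRight (Nat.mul w (Nat.add (nat_lit 613566757) (Nat.shiftRight (Nat.mul w (Nat.add (nat_lit 477218588) (Nat.shiftRight (Nat.mul w (nat_lit 390451572)) (nat_lit 32)))) (nat_lit 32)))) (nat_lit 32)))) (nat_lit 32)))) (nat_lit 32)))) (nat_lit 32))) k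

/-- passes an approximation of `2^32 * log N` to `k`, for `2^40 ≤ N < 2^168` -/
def lgK (N : Nat) (k : Nat → Bool) : Bool :=
  lvl (nat_lit 20282409603651670423947251286016) (nat_lit 64) N (nat_lit 0) fun N e =>
      lvl (nat_lit 4722366482869645213696) (nat_lit 32) N e fun N e =>
      lvl (nat_lit 72057594037927936) (nat_lit 16) N e fun N e =>
      lvl (nat_lit 281474976710656) (nat_lit 8) N e fun N e =>
      lvl (nat_lit 17592186044416) (nat_lit 4) N e fun N e =>
      lvl (nat_lit 4398046511104) (nat_lit 2) N e fun N e =>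
      lvl (nat_lit 2199023255552) (nat_lit 1) N e fun M e =>
      Bool.rec false (lgT M e k) (Nat.beq (Nat.shiftRight M (nat_lit 40)) (nat_lit 1))

/-- passes an approximation of `2^32 * log N` to `k`, for `2^40 ≤ N < 2^296` -/
def lgW (N : Nat) (k : Nat → Bool) : Bool :=
  lvl (nat_lit 374144419156711147060143317175368453031918731001856) (nat_lit 128) N (nat_lit 0) fun N e =>
      lvl (nat_lit 20282409603651670423947251286016) (nat_lit 64) N e fun N e =>
      lvl (nat_lit 4722366482869645213696) (nat_lit 32) N e fun N e =>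
      lvl (nat_lit 72057594037927936) (nat_lit 16) N e fun N e =>
      lvl (nat_lit 281474976710656) (nat_lit 8) N e fun N e =>
      lvl (nat_lit 17592186044416) (nat_lit 4) N e fun N e =>
      lvl (nat_lit 4398046511104) (nat_lit 2) N e fun N e =>
      lvl (nat_lit 2199023255552) (nat_lit 1) N e fun M e =>
      Bool.rec false (lgT M e k) (Nat.beq (Nat.shiftRight M (nat_lit 40)) (nat_lit 1))

/-- one atom on the cell `[T - H, T + H]` -/
def stepF (T H E : Nat) (a : Atom) (P Q S R : Nat) (ih : Nat → Nat → Nat → Nat → Bool) : Bool :=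
  Atom.rec (fun A Bp Bn C V D =>
      force (Nat.sub (Nat.add (Nat.mul (Nat.add (Nat.mul A T) Bp) T) C) (Nat.mul Bn T)) fun N =>
      lgW N fun l =>
      force (Nat.div (Nat.sub (Nat.add (Nat.mul (nat_lit 4294967296) (Nat.mul H (Nat.add (Nat.mul (Nat.mul (nat_lit 2) A) T) Bp))) (Nat.mul (nat_lit 8589934592) N)) (Nat.mul (nat_lit 4294967296) (Nat.mul H Bn))) N) fun g =>
      force (Nat.add (Nat.div (Nat.mul (nat_lit 4294967296) (Nat.mul (Nat.mul H H) A)) N) (nat_lit 1)) fun e =>
      Bool.rec false (ih (Nat.add P (Nat.mul V l)) (Nat.add Q (Nat.mul V g)) (Nat.add S (Nat.mul V (Nat.sub (Nat.add e (nat_lit 8589934592)) (Nat.shiftRight (Nat.sub (Nat.add (Nat.mul g g) (nat_lit 73786976294838206464)) (Nat.mul (nat_lit 17179869184) g)) (nat_lit 33))))) (Nat.add R (Nat.mul D e))) (Nat.ble e E)) a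

/-- all atoms -/
def run (T H E : Nat) (fin : Nat → Nat → Nat → Nat → Bool) (l : List Atom) :
    Nat → Nat → Nat → Nat → Bool :=
  List.rec (motive := fun _ => Nat → Nat → Nat → Nat → Bool) (fun P Q S R => fin P Q S R)
    (fun a _ ih P Q S R => stepF T H E a P Q S R ih) l

/-- a comparison between the block with shift `si` and the block with shift `sj` -/
structure Cmp where
  si : Nat
  sj : Nat
  al : Nat
  be : Nat

/-- the sharp criterion for `a - t |x| + (p - n) x² ≥ 0` on `[-1, 1]` -/
def crit (a t p n : Nat) : Bool :=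
  Bool.rec false (Bool.rec (Nat.ble (Nat.mul t t) (Nat.mul (Nat.mul (nat_lit 4) a) p)) true (Nat.ble (Nat.mul (nat_lit 2) p) t)) (Nat.ble (Nat.add t n) (Nat.add a p))

def digit (P s : Nat) : Nat :=
  Nat.mod (Nat.shiftRight P s) (nat_lit 79228162514264337593543950336)

def fin1 (P Q S R si sj al be : Nat) (ih : Bool) : Bool :=
  force (Nat.add (Nat.add (digit P si) al) R) fun x =>
      force (Nat.add (digit P sj) be) fun y =>
      force (digit Q si) fun u =>
      force (digit Q sj) fun v =>
      force (digit S si) fun p =>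
      force (digit S sj) fun q =>
      Bool.rec false (Bool.rec false ih (force (Nat.sub y x) fun a =>
      force (Nat.add (Nat.sub u v) (Nat.sub v u)) fun t =>
      force (Nat.sub q p) fun p' =>
      force (Nat.sub p q) fun n =>
      crit a t p' n)) (Nat.ble x y)

def finL (P Q S R : Nat) (l : List Cmp) : Bool :=
  List.rec (motive := fun _ => Bool) true
    (fun c _ ih => Cmp.rec (fun si sj al be => fin1 P Q S R si sj al be ih) c) l

/-- the remainder `2 R / (3 (m + 1)) + 1` -/
def finF (cmps : List Cmp) (m : Nat) (P Q S R : Nat) : Bool :=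
  force P fun P =>
      force Q fun Q =>
      force S fun S =>
      force (Nat.add (Nat.div (Nat.mul (nat_lit 2) R) (Nat.mul (nat_lit 3) (Nat.add m (nat_lit 1)))) (nat_lit 1)) fun R =>
      finL P Q S R cmps

/-- a cell: half width `H` and `m` with `e ≤ 1 / (m + 2)²` -/
structure Cell where
  H : Nat
  m : Nat

/-- all cells; `T` = left end -/
def cells (atoms : List Atom) (cmps : List Cmp) (l : List Cell) : Nat → Bool :=
  List.rec (motive := fun _ => Nat → Bool) (fun _ =>
      true) (fun c _ ih T =>
      Cell.rec (fun H m =>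
      force (Nat.add T H) fun T0 =>
      force (Nat.div (nat_lit 4294967296) (Nat.mul (Nat.add m (nat_lit 2)) (Nat.add m (nat_lit 2)))) fun E =>
      Bool.rec false (force (Nat.add T0 H) ih) (run T0 H E (finF cmps m) atoms (nat_lit 0) (nat_lit 0) (nat_lit 0) (nat_lit 0))) c) l

/-! ### the one time check -/

/-- field `b` of a packed number -/
def fld (V b : Nat) : Nat := V / 2 ^ (96 * b) % 2 ^ 96

/-- sum of the multiplicities of block `b` -/
def tot (atoms : List Atom) (b : Nat) : Nat := (atoms.map fun a => fld a.V b).sum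

/-- static conditions on the data -/
def okAtom (prs : List (Nat × Nat)) (a : Atom) : Bool :=
  decide ((a.Bp + a.Bn) ^ 2 ≤ 4 * a.A * a.C ∧ (a.Bp = 0 ∨ a.Bn = 0) ∧ a.V < 2 ^ (96 * 16) ∧
    (∀ b < 16, fld a.V b < 2 ^ 32)) &&
  prs.all fun c => decide (fld a.V c.1 ≤ fld a.V c.2 + a.D ∧ fld a.V c.2 ≤ fld a.V c.1 + a.D)

/-- sum of the `D` -/
def sumD (atoms : List Atom) : Nat := (atoms.map fun a => a.D).sum

/-- the comparison `p.1 ≤ p.2` in machine form -/
def mkCmp (atoms : List Atom) (cs : List Nat) (p : Nat × Nat) : Cmp :=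
  ⟨96 * p.1, 96 * p.2, cs.getD p.1 0 + 610 * sumD atoms, cs.getD p.2 0⟩

end Vale.Agent.P030.H532
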